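import Vale.Agent.P179.Rel.Final
import Vale.Agent.P179.Rel.Main

/-!
# The blockwise Alperin weight conjecture for abelian defect groups with a cyclic inertial quotient
of prime power order, or with a factor on which the cyclic inertial quotient acts freely

Let `T` be the inertial group of the block `B` with abelian defect group `D`, and let `T / C_G(D)` be
cyclic of order `e`. If `e` is a prime power, or if `D = K₁ × K₂` with `T`-stable `K₁`, `K₂` such that
`T / C_G(D)` acts freely on `K₁ \ {1}` (`K₁ ≠ 1` unless `e = 1`), then `|W_p(B)| = e ≤ l(B)`, and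
`l(B) = e` for `p` odd. The class `SolvedFrom` is obtained from these and the former cases by a
recursion.
-/

open P179B Subgroup

theorem Vale.Agent.Results.P179.CyclicInertialEquality.result (p : ℕ) [Fact p.Prime]
    (k : Type) [Field k] [IsAlgClosed k] [CharP k p] :
    Nonempty (integralClosure ℤ ℂ →+* k) ∧
    ∀ (red : integralClosure ℤ ℂ →+* k) (G : Type) [Group G] [Finite G]
      (B : MonoidAlgebra k G), IsBlock B →
      (∀ D : Subgroup G, IsDefectGroup B D →
        (∃ b : MonoidAlgebra k (centralizer (D : Set G)), IsBlock b ∧ InducesTo b B) ∧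
        ((∀ x ∈ D, ∀ y ∈ D, x * y = y * x) →
          ∀ b : MonoidAlgebra k (centralizer (D : Set G)), IsBlock b → InducesTo b B →
          (CyclicOn D (inertialGroup D b) →
            IsPrimePow (inertialIndex D b) ∨ FreeFactorOn D (inertialGroup D b) →
            numWeightsIn p red B = inertialIndex D b ∧ inertialIndex D b ≤ numSimpleIn B ∧
              (p ≠ 2 → numSimpleIn B = inertialIndex D b)) ∧
          ∀ a : ℕ, 2 < p → LevelSolvedFrom p a (KnownOrFactor p) D b →
            numSimpleIn B ≡ numWeightsIn p red B [MOD p ^ (a + 1)])) ∧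
      (SolvedBlockFrom p (KnownOrFactor p) B → numSimpleIn B = numWeightsIn p red B) ∧
      ∀ (R : Subgroup G) [R.Normal], IsPGroup p R →
        (∀ B' : MonoidAlgebra k (G ⧸ R), IsBlock B' →
          B' * MonoidAlgebra.mapDomainAlgHom k k (QuotientGroup.mk' R) B = B' →
          SolvedBlockFrom p (KnownOrFactor p) B') →
        numSimpleIn B = numWeightsIn p red B :=
  Vale.P179.Rel.final Vale.P179.Rel.blkr_all p k
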